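import Vale.Agent.P293.Stable

namespace Vale.Agent.Results.P295.Counterexample

/-- A polynomial in five complex variables that is a 1-stable coordinate but not a coordinate. -/
theorem result : ∃ f : MvPolynomial (Fin 5) ℂ,
    (∃ φ : MvPolynomial (Fin 6) ℂ ≃ₐ[ℂ] MvPolynomial (Fin 6) ℂ,
      φ (MvPolynomial.rename Fin.castSucc f) = MvPolynomial.X 0) ∧
    ¬∃ φ : MvPolynomial (Fin 5) ℂ ≃ₐ[ℂ] MvPolynomial (Fin 5) ℂ, φ f = MvPolynomial.X 0 :=
  ⟨Vale.Agent.P293.Hpoly, Vale.Agent.P293.stable_coord, Vale.Agent.P293.not_coord⟩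

end Vale.Agent.Results.P295.Counterexample
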